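import Vale.Agent.P284.H894.W.Spec
import Mathlib.Topology.Homotopy.Lifting
import Mathlib.Analysis.Convex.Contractible

/-! # P284, theorem W, block WLIFT (helper977): the lift of `Φ : ℂⁿ → X` to a covering space. -/

open scoped Manifold ContDiff Topology Pointwise
open Filter Set Metric

noncomputable section

namespace Vale.Agent.P284.H977

open Vale.Agent.P272.K Vale.Agent.P284.H894 Vale.Agent.P284.H894.W

/-- **WLIFT** -/
theorem liftStmt : LiftStmt := by
  intro n X _ E _ p hp hsurj Φ hΦ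
  obtain ⟨y₀, hy₀⟩ := hsurj (Φ 0)
  obtain ⟨F, ⟨-, hpF⟩, -⟩ := hp.existsUnique_continuousMap_lifts ⟨Φ, hΦ⟩ 0 y₀ hy₀
  exact ⟨F, F.continuous, fun ζ => congrFun hpF ζ⟩

end Vale.Agent.P284.H977
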