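import Vale.Agent.P284.H977.ExLoc

/-!
# P284, theorem A, row AX (helper977): twisted functions with small `∂ψ ∧ ∂u`: families
-/

open scoped Manifold ContDiff Topology Pointwise ComplexConjugate ComplexOrder Matrix
open Filter Set Metric MeasureTheory

noncomputable section

namespace Vale.Agent.P284.H977

open Vale.Agent.P272.K Vale.Agent.P272.K.C2 Vale.Agent.P284.H248 Vale.Agent.P284.H894
  Vale.Agent.P284.H894.V Vale.Agent.P284.H639.V Vale.Agent.P284.H66 Vale.Agent.P284.H66.S7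
  Vale.Agent.P284.H913.V Vale.Agent.P284.H639.Tw
open Vale.Agent.P284.H409.A (lapC Tw Psi Pot IbpStmt tau W1 W2 TwKStmt DensStmt PoinStmt ResStmt
  ExStmtA ExConclA)

variable {n : ℕ} {Γ : Type} [Group Γ] {C : Coc n Γ}

/-! ### The twisted function `u₀` -/

/-- `u₀ = Σ_b χ_b f(γ κ_ab)` -/
def u0 (P : PU C) (f : Γ → ℂ) (γ : Γ) (a : C.I) (z : Cm n) : ℂ :=
  ∑ b, (P.χ b a z : ℂ) * f (γ * C.κ a b z)

theorem u0_ev (P : PU C) (f : Γ → ℂ) (γ : Γ) {a : C.I} {z : Cm n} (hz : z ∈ C.Ω a) :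
    u0 P f γ a =ᶠ[𝓝 z] fun y => ∑ b, (P.χ b a y : ℂ) * f (γ * C.κ a b z) := by
  have h1 : ∀ b, ∀ᶠ y in 𝓝 z, (P.χ b a y : ℂ) * f (γ * C.κ a b y) =
      (P.χ b a y : ℂ) * f (γ * C.κ a b z) := by
    intro b
    by_cases h : z ∈ C.O a b ∧ C.T a b z ∈ P.K b
    · filter_upwards [C.κ_loc a b z h.1] with y hy
      rw [hy]
    · filter_upwards [chi_ev P b hz h] with y hy
      rw [hy, Complex.ofReal_zero, zero_mul, zero_mul]
  filter_upwards [(eventually_all (ι := C.I)).2 h1] with y h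
  exact Finset.sum_congr rfl fun b _ => h b

theorem u0_tw (P : PU C) {χ f : Γ → ℂ} (hf : ∀ g h, f (g * h) = f g + χ g * f h) :
    Tw C χ f (u0 P f) where
  smooth γ a z hz := by
    refine ContDiffAt.congr_of_eventuallyEq ?_ (u0_ev P f γ hz)
    exact ContDiffAt.sum fun b _ => (C2.contDiffAt_ofReal (P.smooth b a z hz)).mul contDiffAt_const
  compat γ a d z hz := by
    have h2 := T_mem_Ω C hz
    refine Finset.sum_congr rfl fun b _ => ?_
    rw [← P.compat b a d z hz]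
    by_cases h0 : P.χ b a z = 0
    · rw [h0, Complex.ofReal_zero, zero_mul, zero_mul]
    · have h3 : P.χ b d (C.T a d z) ≠ 0 := by rwa [← P.compat b a d z hz]
      have h4 := (P.supp b d _ h2 h3).1
      rw [C.trans_κ a d b z hz h4, mul_assoc]
  equi g γ a z hz := by
    have h1 : (∑ b, (P.χ b a z : ℂ)) = 1 := by exact_mod_cast P.sum_one a z hz
    have h2 : ∀ b, (P.χ b a z : ℂ) * f (g * γ * C.κ a b z) =
        χ g * ((P.χ b a z : ℂ) * f (γ * C.κ a b z)) + (P.χ b a z : ℂ) * f g := by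
      intro b
      rw [mul_assoc g, hf]
      ring
    simp only [u0, h2]
    rw [Finset.sum_add_distrib, ← Finset.mul_sum, ← Finset.sum_mul, h1, one_mul]

/-! ### The weight `e^ψ` -/

section
variable {χ f : Γ → ℂ} {ψ : Γ → C.I → Cm n → ℝ} {u : Γ → C.I → Cm n → ℂ}

/-- the unitary part of the character -/
def uc (χ : Γ → ℂ) (g : Γ) : ℂ := χ g / (‖χ g‖ : ℂ)

theorem uc_norm (h : ∀ g, χ g ≠ 0) (g : Γ) : ‖uc χ g‖ = 1 := by
  rw [uc, norm_div, Complex.norm_real, norm_norm, div_self (norm_ne_zero_iff.2 (h g))]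

theorem uc_mul (h : ∀ g h, χ (g * h) = χ g * χ h) (g k : Γ) :
    uc χ (g * k) = uc χ g * uc χ k := by
  rw [uc, uc, uc, h, norm_mul, Complex.ofReal_mul, mul_div_mul_comm]

theorem exp_equi (hψ : Psi C χ ψ) (g γ : Γ) {a : C.I} {z : Cm n} (hz : z ∈ C.Ω a) :
    Real.exp (ψ (g * γ) a z) = ‖χ g‖ * Real.exp (ψ γ a z) := by
  rw [hψ.equi g γ a z hz, Real.exp_add, Real.exp_log (norm_pos_iff.2 (hψ.ne g)), mul_comm]

theorem psi_ev (hψ : Psi C χ ψ) (γ : Γ) {a b : C.I} {z : Cm n} (hz : z ∈ C.O a b) :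
    ∀ᶠ y in 𝓝 z, ψ γ a y = ψ (γ * C.κ a b z) b (C.T a b y) := by
  filter_upwards [(C.O_open a b).mem_nhds hz, C.κ_loc a b z hz] with y hy hk
  rw [hψ.compat γ a b y hy, hk]

theorem tw_ev (hu : Tw C χ f u) (γ : Γ) {a b : C.I} {z : Cm n} (hz : z ∈ C.O a b) :
    ∀ᶠ y in 𝓝 z, u γ a y = u (γ * C.κ a b z) b (C.T a b y) := by
  filter_upwards [(C.O_open a b).mem_nhds hz, C.κ_loc a b z hz] with y hy hk
  rw [hu.compat γ a b y hy, hk]

/-- `e^ψ s` is twisted with the character `χ` -/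
theorem exp_mul_tw (hψ : Psi C χ ψ) {s : Γ → C.I → Cm n → ℂ} (hs : UT C (uc χ) s) :
    Tw C χ 0 (fun γ a z => (Real.exp (ψ γ a z) : ℂ) * s γ a z) where
  smooth γ a z hz := (C2.contDiffAt_ofReal (hψ.smooth γ a z hz).exp).mul (hs.smooth γ a z hz)
  compat γ a b z hz := by rw [hψ.compat γ a b z hz, hs.compat γ a b z hz]
  equi g γ a z hz := by
    have h0 : (‖χ g‖ : ℂ) ≠ 0 := by exact_mod_cast norm_ne_zero_iff.2 (hψ.ne g)
    rw [exp_equi hψ g γ hz, hs.equiv g γ a z hz, uc, Pi.zero_apply, add_zero]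
    push_cast
    field_simp

theorem tau_smooth (K : KM C) (hψ : Psi C χ ψ) (hu : Tw C χ f u) (γ : Γ) {a : C.I} {z : Cm n}
    (hz : z ∈ C.Ω a) : ContDiffAt ℝ ∞ (tau (K.w a) (ψ γ a) (u γ a)) z := by
  have h1 : tau (K.w a) (ψ γ a) (u γ a) = fun y => lc (K.w a) (u γ a) y -
      2 * gc (K.w a) (fun y => (ψ γ a y : ℂ)) (u γ a) y := funext fun y => tau_eq _ _ _
  rw [h1]
  exact (lc_smooth (K.ku a) hz (hu.smooth γ a z hz)).sub (contDiffAt_const.mul
    (gc_smooth (K.ku a) hz (C2.contDiffAt_ofReal (hψ.smooth γ a z hz)) (hu.smooth γ a z hz)))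

theorem tau_compat (K : KM C) (hψ : Psi C χ ψ) (hu : Tw C χ f u) (γ : Γ) {a b : C.I} {z : Cm n}
    (hz : z ∈ C.O a b) : tau (K.w a) (ψ γ a) (u γ a) z =
      tau (K.w b) (ψ (γ * C.κ a b z) b) (u (γ * C.κ a b z) b) (C.T a b z) := by
  have hTz := T_mem_Ω C hz
  have hpos := (K.ku a).pos z (O_sub_Ω C hz)
  have h1 := hu.smooth (γ * C.κ a b z) b (C.T a b z) hTz
  have h2 := C2.contDiffAt_ofReal (hψ.smooth (γ * C.κ a b z) b (C.T a b z) hTz)
  rw [tau_eq, tau_eq, lc_comp (T_ev C hz) hpos (K.change a b z hz) h1 (tw_ev hu γ hz),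
    gc_comp (T_ev C hz) hpos (K.change a b z hz) (sm_diff h2) (sm_diff h1)
      ((psi_ev hψ γ hz).mono fun y hy => by rw [hy]) (tw_ev hu γ hz)]

theorem tau_equi (K : KM C) (hψ : Psi C χ ψ) (hu : Tw C χ f u) (g γ : Γ) {a : C.I} {z : Cm n}
    (hz : z ∈ C.Ω a) : tau (K.w a) (ψ (g * γ) a) (u (g * γ) a) z =
      χ g * tau (K.w a) (ψ γ a) (u γ a) z := by
  have e1 : ψ (g * γ) a =ᶠ[𝓝 z] fun y => ψ γ a y + Real.log ‖χ g‖ := by
    filter_upwards [(isOpen_Ω C a).mem_nhds hz] with y hy using hψ.equi g γ a y hy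
  have e2 : u (g * γ) a =ᶠ[𝓝 z] fun y => χ g * u γ a y + f g := by
    filter_upwards [(isOpen_Ω C a).mem_nhds hz] with y hy using hu.equi g γ a y hy
  rw [tau_congr e1 e2, tau_addc _ ((hψ.smooth γ a z hz).differentiableAt (by norm_num)),
    tau_aff _ _ (hu.smooth γ a z hz)]

/-- `α₀ = e^{-ψ} tau u₀` -/
def al0 (K : KM C) (ψ : Γ → C.I → Cm n → ℝ) (u : Γ → C.I → Cm n → ℂ) (γ : Γ) (a : C.I)
    (z : Cm n) : ℂ := (Real.exp (-ψ γ a z) : ℂ) * tau (K.w a) (ψ γ a) (u γ a) z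

theorem al0_ut (K : KM C) (hψ : Psi C χ ψ) (hu : Tw C χ f u) : UT C (uc χ) (al0 K ψ u) where
  smooth γ a z hz := (C2.contDiffAt_ofReal (hψ.smooth γ a z hz).neg.exp).mul
    (tau_smooth K hψ hu γ hz)
  compat γ a b z hz := by
    rw [al0, al0, tau_compat K hψ hu γ hz, hψ.compat γ a b z hz]
  equiv g γ a z hz := by
    have h0 : (‖χ g‖ : ℂ) ≠ 0 := by exact_mod_cast norm_ne_zero_iff.2 (hψ.ne g)
    rw [al0, al0, tau_equi K hψ hu g γ hz, Real.exp_neg, Real.exp_neg, exp_equi hψ g γ hz, uc]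
    push_cast
    field_simp

/-- the potential `q = |∂ψ|²` -/
theorem pot_q (K : KM C) (hψ : Psi C χ ψ) : Pot C (fun a z => gr (K.w a) (ψ 1 a) (ψ 1 a) z) where
  smooth a z hz := smooth_gr (K.ku a) hz (hψ.smooth 1 a z hz) (hψ.smooth 1 a z hz)
  nonneg a z hz := (H730.V.vp_nonneg (K.w a) (ψ 1 a) z ((K.ku a).pos z hz)).1
  compat a b z hz := by
    have hTz := T_mem_Ω C hz
    have hpos := (K.ku a).pos z (O_sub_Ω C hz)
    have hpos' := (K.ku b).pos _ hTz
    have h1 := hψ.smooth 1 b (C.T a b z) hTz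
    have e : ∀ᶠ y in 𝓝 z, ψ 1 a y = ψ 1 b (C.T a b y) + Real.log ‖χ (C.κ a b z)‖ := by
      filter_upwards [psi_ev hψ 1 hz, (C.O_open a b).mem_nhds hz] with y hy hyO
      have := hψ.equi (C.κ a b z) 1 b (C.T a b y) (T_mem_Ω C hyO)
      rw [mul_one] at this
      rw [hy, one_mul, this]
    have h2 : DifferentiableAt ℝ (fun y => ψ 1 b y + Real.log ‖χ (C.κ a b z)‖) (C.T a b z) :=
      (h1.differentiableAt (by norm_num)).add_const _
    have h3 := C2.differentiableAt_ofReal h2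
    have h4 := C2.differentiableAt_ofReal (h1.differentiableAt (n := ∞) (by norm_num))
    have hda : DifferentiableAt ℝ (ψ 1 a) z :=
      (hψ.smooth 1 a z (O_sub_Ω C hz)).differentiableAt (by norm_num)
    have h5 : gc (K.w a) (fun y => (ψ 1 a y : ℂ)) (fun y => (ψ 1 a y : ℂ)) z =
        gc (K.w b) (fun y => (ψ 1 b y : ℂ)) (fun y => (ψ 1 b y : ℂ)) (C.T a b z) := by
      have e' : ∀ᶠ y in 𝓝 z, (ψ 1 a y : ℂ) =
          ((ψ 1 b (C.T a b y) + Real.log ‖χ (C.κ a b z)‖ : ℝ) : ℂ) :=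
        e.mono fun y hy => by rw [hy]
      rw [gc_comp (f' := fun y => ((ψ 1 b y + Real.log ‖χ (C.κ a b z)‖ : ℝ) : ℂ))
        (h' := fun y => ((ψ 1 b y + Real.log ‖χ (C.κ a b z)‖ : ℝ) : ℂ)) (T_ev C hz) hpos
        (K.change a b z hz) h3 h3 e' e']
      have e3 : (fun y => ((ψ 1 b y + Real.log ‖χ (C.κ a b z)‖ : ℝ) : ℂ)) = fun y =>
          (ψ 1 b y : ℂ) + ((Real.log ‖χ (C.κ a b z)‖ : ℝ) : ℂ) := by
        funext y; push_cast; rfl
      rw [e3, gc_add h4 (differentiableAt_const _), gc_const, add_zero,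
        gc_add' h4 (differentiableAt_const _), gc_const', add_zero]
    rw [gc_real hpos hda, gc_real hpos' (h1.differentiableAt (by norm_num))] at h5
    exact_mod_cast h5

end

/-! ### The module of twisted sections -/

/-- the module of twisted sections -/
def Mo (C : Coc n Γ) (σ : Γ → ℂ) : Submodule ℝ (Γ → C.I → Cm n → ℂ) where
  carrier := {s | UT C σ s}
  add_mem' := fun hs hv => hs.add hv
  zero_mem' := UT.zero
  smul_mem' := fun c s hs => by
    have h1 : (c • s : Γ → C.I → Cm n → ℂ) = fun γ a z => (c : ℂ) * s γ a z := by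
      funext γ a z
      simp only [Pi.smul_apply, Complex.real_smul]
    show UT C σ (c • s)
    rw [h1]
    exact hs.const_mul c

variable {σ : Γ → ℂ}

/-- the inner product -/
def ipM (P : PU C) (K : KM C) (hσ : ∀ g, ‖σ g‖ = 1) : Mo C σ →ₗ[ℝ] Mo C σ →ₗ[ℝ] ℝ :=
  LinearMap.mk₂ ℝ (fun s v => BInt P K (fun a z => (s.1 1 a z * conj (v.1 1 a z)).re))
    (fun s s' v => by
      rw [← BInt_add P K (BD_ip hσ s.2 v.2) (BD_ip hσ s'.2 v.2)]
      refine BInt_congr P K fun a z _ => ?_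
      show ((s.1 1 a z + s'.1 1 a z) * conj (v.1 1 a z)).re = _
      rw [add_mul, Complex.add_re])
    (fun c s v => by
      rw [smul_eq_mul, ← BInt_smul]
      refine BInt_congr P K fun a z _ => ?_
      show ((c • s.1 1 a z) * conj (v.1 1 a z)).re = _
      rw [Complex.real_smul, mul_assoc, Complex.re_ofReal_mul])
    (fun s v v' => by
      rw [← BInt_add P K (BD_ip hσ s.2 v.2) (BD_ip hσ s.2 v'.2)]
      refine BInt_congr P K fun a z _ => ?_
      show (s.1 1 a z * conj (v.1 1 a z + v'.1 1 a z)).re = _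
      rw [map_add, mul_add, Complex.add_re])
    (fun c s v => by
      rw [smul_eq_mul, ← BInt_smul]
      refine BInt_congr P K fun a z _ => ?_
      show (s.1 1 a z * conj (c • v.1 1 a z)).re = _
      rw [Complex.real_smul, map_mul, Complex.conj_ofReal, mul_left_comm, Complex.re_ofReal_mul])

theorem ipM_apply (P : PU C) (K : KM C) (hσ : ∀ g, ‖σ g‖ = 1) (s v : Mo C σ) :
    ipM P K hσ s v = BInt P K (fun a z => (s.1 1 a z * conj (v.1 1 a z)).re) := rfl

/-- the operator `L s = lapC s - q s` -/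
def LF (K : KM C) (q : C.I → Cm n → ℝ) (s : Γ → C.I → Cm n → ℂ) (γ : Γ) (a : C.I) : Cm n → ℂ :=
  (C.Ω a).indicator fun z => lapC (K.w a) (s γ a) z - (q a z : ℂ) * s γ a z

theorem LF_mem {K : KM C} {q : C.I → Cm n → ℝ} {s : Γ → C.I → Cm n → ℂ} {γ : Γ} {a : C.I}
    {z : Cm n} (hz : z ∈ C.Ω a) :
    LF K q s γ a z = lapC (K.w a) (s γ a) z - (q a z : ℂ) * s γ a z := indicator_of_mem hz _

theorem LF_ut (K : KM C) {q : C.I → Cm n → ℝ} (hq : Pot C q) {s : Γ → C.I → Cm n → ℂ}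
    (hs : UT C σ s) : UT C σ (LF K q s) := by
  have h1 : UT C σ (fun γ a z => lapC (K.w a) (s γ a) z + (-1 : ℂ) * ((q a z : ℂ) * s γ a z)) :=
    (hs.lapC K).add ((hs.mul_base hq.smooth hq.compat).const_mul (-1))
  have h2 : ∀ γ a, ∀ z ∈ C.Ω a, LF K q s γ a z =
      lapC (K.w a) (s γ a) z + (-1 : ℂ) * ((q a z : ℂ) * s γ a z) := fun γ a z hz => by
    rw [LF_mem hz]; ring
  refine ⟨fun γ a z hz => ?_, fun γ a b z hz => ?_, fun g γ a z hz => ?_⟩
  · refine (h1.smooth γ a z hz).congr_of_eventuallyEq ?_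
    filter_upwards [(isOpen_Ω C a).mem_nhds hz] with y hy using h2 γ a y hy
  · rw [h2 _ _ _ (O_sub_Ω C hz), h2 _ _ _ (T_mem_Ω C hz)]
    exact h1.compat γ a b z hz
  · rw [h2 _ _ _ hz, h2 _ _ _ hz]
    exact h1.equiv g γ a z hz

/-- the operator as a linear map -/
def LM (K : KM C) {q : C.I → Cm n → ℝ} (hq : Pot C q) : Mo C σ →ₗ[ℝ] Mo C σ where
  toFun s := ⟨LF K q s.1, LF_ut K hq s.2⟩
  map_add' s v := by
    apply Subtype.ext
    funext γ a z
    show LF K q (s.1 + v.1) γ a z = LF K q s.1 γ a z + LF K q v.1 γ a z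
    by_cases hz : z ∈ C.Ω a
    · rw [LF_mem hz, LF_mem hz, LF_mem hz]
      have h1 : (s.1 + v.1) γ a = fun y => s.1 γ a y + v.1 γ a y := rfl
      rw [h1, lapC_add _ (s.2.smooth γ a z hz) (v.2.smooth γ a z hz)]
      ring
    · simp only [LF, indicator_of_notMem hz, add_zero]
  map_smul' c s := by
    apply Subtype.ext
    funext γ a z
    show LF K q (c • s.1) γ a z = c • LF K q s.1 γ a z
    by_cases hz : z ∈ C.Ω a
    · rw [LF_mem hz, LF_mem hz]
      have h1 : (c • s.1) γ a = fun y => (c : ℂ) * s.1 γ a y := by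
        funext y
        simp only [Pi.smul_apply, Complex.real_smul]
      rw [h1, lapC_const_mul _ _ (s.2.smooth γ a z hz), Complex.real_smul]
      ring
    · simp only [LF, indicator_of_notMem hz, smul_zero]

theorem LM_val (K : KM C) {q : C.I → Cm n → ℝ} (hq : Pot C q) (s : Mo C σ) :
    (LM K hq s).1 = LF K q s.1 := rfl

/-- the energy -/
def enM (P : PU C) (K : KM C) (hσ : ∀ g, ‖σ g‖ = 1) {q : C.I → Cm n → ℝ} (hq : Pot C q) :
    Mo C σ →ₗ[ℝ] Mo C σ →ₗ[ℝ] ℝ := -((ipM P K hσ).comp (LM K hq))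

theorem enM_eq (P : PU C) (K : KM C) (hσ : ∀ g, ‖σ g‖ = 1) {q : C.I → Cm n → ℝ} (hq : Pot C q)
    (s v : Mo C σ) : enM P K hσ hq s v =
      BInt P K (fun a z => gr (K.w a) (fun y => (s.1 1 a y).re) (fun y => (v.1 1 a y).re) z +
        gr (K.w a) (fun y => (s.1 1 a y).im) (fun y => (v.1 1 a y).im) z +
        q a z * (s.1 1 a z * conj (v.1 1 a z)).re) := by
  have h1 : enM P K hσ hq s v = -BInt P K (fun a z =>
      (LF K q s.1 1 a z * conj (v.1 1 a z)).re) := rfl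
  have h2 := ut_ibp P K hσ s.2 v.2
  have hb1 := BD_ip hσ (s.2.lapC K) v.2
  have hb2 := BD_ip hσ (s.2.mul_base hq.smooth hq.compat) v.2
  have hb3 := BD_gr K hσ s.2 v.2
  have h3 : BInt P K (fun a z => (LF K q s.1 1 a z * conj (v.1 1 a z)).re) =
      BInt P K (fun a z => 1 * (lapC (K.w a) (s.1 1 a) z * conj (v.1 1 a z)).re +
        (-1) * ((q a z : ℂ) * s.1 1 a z * conj (v.1 1 a z)).re) := by
    refine BInt_congr P K fun a z hz => ?_
    rw [LF_mem (V_sub_Ω C a hz), sub_mul, Complex.sub_re]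
    ring
  rw [h1, h3, BInt_comb P K hb1 hb2, h2]
  have h4 : BInt P K (fun a z => gr (K.w a) (fun y => (s.1 1 a y).re) (fun y => (v.1 1 a y).re) z +
        gr (K.w a) (fun y => (s.1 1 a y).im) (fun y => (v.1 1 a y).im) z +
        q a z * (s.1 1 a z * conj (v.1 1 a z)).re) =
      BInt P K (fun a z => gr (K.w a) (fun y => (s.1 1 a y).re) (fun y => (v.1 1 a y).re) z +
        gr (K.w a) (fun y => (s.1 1 a y).im) (fun y => (v.1 1 a y).im) z) +
      BInt P K (fun a z => ((q a z : ℂ) * s.1 1 a z * conj (v.1 1 a z)).re) := by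
    rw [← BInt_add P K hb3 hb2]
    refine BInt_congr P K fun a z _ => ?_
    simp only [mul_assoc, Complex.re_ofReal_mul]
  rw [h4]
  ring

theorem norm_sq_re (x : ℂ) : (x * conj x).re = ‖x‖ ^ 2 := by
  rw [Complex.mul_conj, Complex.normSq_eq_norm_sq, Complex.ofReal_re]

/-- **AX** -/
theorem exStmtA : ExStmtA := by
  intro hTw hDens _ hPoin hRes n Γ _ C P K χ f ψ hχ hf hψ hne ε hε
  have hσ : ∀ g, ‖uc χ g‖ = 1 := uc_norm hψ.ne
  have hσm : ∀ g h, uc χ (g * h) = uc χ g * uc χ h := uc_mul hχ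
  set q : C.I → Cm n → ℝ := fun a z => gr (K.w a) (ψ 1 a) (ψ 1 a) z with hqdef
  have hq : Pot C q := pot_q K hψ
  have hq0 : ∃ a, ∃ z ∈ C.Ω a, q a z ≠ 0 := by
    obtain ⟨a, z, hz, h0⟩ := hne
    exact ⟨a, z, hz, gr_ne_zero ((K.ku a).pos z hz)
      ((hψ.smooth 1 a z hz).differentiableAt (by norm_num)) h0⟩
  have hu0 : Tw C χ f (u0 P f) := u0_tw P hf
  have hα := al0_ut K hψ hu0
  let α : Mo C (uc χ) := ⟨al0 K ψ (u0 P f), hα⟩
  obtain ⟨v, hv⟩ := hRes (Mo C (uc χ)) (ipM P K hσ) (enM P K hσ hq) (LM K hq)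
    (fun s t => by
      rw [ipM_apply, ipM_apply]
      refine BInt_congr P K fun a z _ => ?_
      rw [← Complex.conj_re, map_mul, Complex.conj_conj, mul_comm])
    (fun s => by
      rw [ipM_apply]
      refine BInt_nonneg P K fun a z _ => ?_
      rw [norm_sq_re]
      positivity)
    (fun s t => by
      rw [enM_eq, enM_eq]
      refine BInt_congr P K fun a z hz => ?_
      have hp := (K.ku a).pos z (V_sub_Ω C a hz)
      rw [H730.V.vp_symm _ _ _ _ hp, H730.V.vp_symm _ (fun y => (s.1 1 a y).im) _ _ hp]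
      congr 2
      rw [← Complex.conj_re, map_mul, Complex.conj_conj, mul_comm])
    (fun s => by
      rw [enM_eq]
      refine BInt_nonneg P K fun a z hz => ?_
      have hz' := V_sub_Ω C a hz
      have hp := (K.ku a).pos z hz'
      rw [norm_sq_re]
      have h1 := (H730.V.vp_nonneg (K.w a) (fun y => (s.1 1 a y).re) z hp).1
      have h2 := (H730.V.vp_nonneg (K.w a) (fun y => (s.1 1 a y).im) z hp).1
      have h3 := hq.nonneg a z hz'
      positivity)
    (fun s t => by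
      show ipM P K hσ (LM K hq s) t = -(-(ipM P K hσ (LM K hq s) t))
      ring)
    (by
      obtain ⟨l₀, hl₀, h⟩ := hDens n Γ C P K (uc χ) hσ hσm q hq
      refine ⟨l₀, hl₀, fun l hl s δ hδ => ?_⟩
      obtain ⟨v, hv, hlt⟩ := h l hl s.1 s.2.tw δ hδ
      refine ⟨⟨v, UT.of_tw hv⟩, lt_of_eq_of_lt ?_ hlt⟩
      rw [ipM_apply]
      refine BInt_congr P K fun a z hz => ?_
      rw [norm_sq_re]
      congr 2
      show l • v 1 a z - LF K q v 1 a z - s.1 1 a z = _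
      rw [LF_mem (V_sub_Ω C a hz), Complex.real_smul]
      push_cast
      ring)
    (fun h hB hen => by
      have h1 : ∀ j, ipM P K hσ (h j) (h j) = BInt P K (fun a z => ‖(h j).1 1 a z‖ ^ 2) := by
        intro j
        rw [ipM_apply]
        exact BInt_congr P K fun a z _ => norm_sq_re _
      have h2 : ∀ j, enM P K hσ hq (h j) (h j) = BInt P K (fun a z =>
          gr (K.w a) (fun y => ((h j).1 1 a y).re) (fun y => ((h j).1 1 a y).re) z +
          gr (K.w a) (fun y => ((h j).1 1 a y).im) (fun y => ((h j).1 1 a y).im) z +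
          q a z * ‖(h j).1 1 a z‖ ^ 2) := by
        intro j
        rw [enM_eq]
        exact BInt_congr P K fun a z _ => by rw [norm_sq_re]
      simp only [h1] at hB ⊢
      simp only [h2] at hen
      exact hPoin n Γ C P K (uc χ) hσ hσm q hq hq0 (fun j => (h j).1) (fun j => (h j).2.tw)
        hB hen)
    (-α) ε hε
  -- the function
  have hv2 : UT C (uc χ) v.1 := v.2
  have hE := exp_mul_tw hψ hv2
  have hu : Tw C χ f (fun γ a z => u0 P f γ a z + (Real.exp (ψ γ a z) : ℂ) * v.1 γ a z) := by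
    refine ⟨fun γ a z hz => (hu0.smooth γ a z hz).add (hE.smooth γ a z hz), fun γ a b z hz => ?_,
      fun g γ a z hz => ?_⟩
    · show u0 P f γ a z + (Real.exp (ψ γ a z) : ℂ) * v.1 γ a z = _
      rw [hu0.compat γ a b z hz, hE.compat γ a b z hz]
    · have h1 := hE.equi g γ a z hz
      simp only [Pi.zero_apply, add_zero] at h1
      rw [hu0.equi g γ a z hz, h1]
      ring
  refine ⟨_, hu, (hTw n Γ C P K χ f ψ _ hψ hu).trans_lt (lt_of_eq_of_lt ?_ hv)⟩
  rw [ipM_apply]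
  refine BInt_congr P K fun a z hz => ?_
  have hz' := V_sub_Ω C a hz
  have hp := (K.ku a).pos z hz'
  have h1 : (LM K hq v - -α : Mo C (uc χ)).1 1 a z =
      lapC (K.w a) (v.1 1 a) z - (q a z : ℂ) * v.1 1 a z + al0 K ψ (u0 P f) 1 a z := by
    show LF K q v.1 1 a z - -(al0 K ψ (u0 P f) 1 a z) = _
    rw [LF_mem hz', sub_neg_eq_add]
  rw [norm_sq_re, h1, tau_add (hu0.smooth 1 a z hz') (hE.smooth 1 a z hz'),
    tau_exp hp (hψ.smooth 1 a z hz') (hψ.hess 1 a z hz') (hv2.smooth 1 a z hz'), al0]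
  have h2 : Real.exp (-2 * ψ 1 a z) = ‖(Real.exp (-ψ 1 a z) : ℂ)‖ ^ 2 := by
    rw [Complex.norm_real, Real.norm_of_nonneg (Real.exp_pos _).le, ← Real.exp_nat_mul]
    congr 1
    push_cast
    ring
  rw [h2, ← mul_pow, ← norm_mul]
  congr 2
  have h3 : (Real.exp (-ψ 1 a z) : ℂ) * (Real.exp (ψ 1 a z) : ℂ) = 1 := by
    rw [← Complex.ofReal_mul, ← Real.exp_add, neg_add_cancel, Real.exp_zero, Complex.ofReal_one]
  linear_combination (lapC (K.w a) (v.1 1 a) z - (q a z : ℂ) * v.1 1 a z) * h3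

end Vale.Agent.P284.H977
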