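import Vale.Agent.P284.H894.W.Spec2
import Vale.Agent.P300.H673.UC
import Vale.Agent.P223.R2.H968.Lift
import Mathlib.Topology.Homotopy.Lifting

/-! # P284, theorem W, block WPI1 (helper977): the universal covering. -/

open scoped Manifold ContDiff Topology Pointwise
open Filter Set Metric

noncomputable section

namespace Vale.Agent.P284.H977

open Vale.Agent.P272.K Vale.Agent.P284.H248 Vale.Agent.P284.H894 Vale.Agent.P284.H894.G
  Vale.Agent.P284.H894.W

/-- subexponential growth passes to groups which embed -/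
theorem subexpGrowth_of_injective {A B : Type*} [Group A] [Group B] (f : A →* B)
    (hf : Function.Injective f) (h : SubexpGrowth B) : SubexpGrowth A := by
  intro S hS ε hε
  obtain ⟨C, hC⟩ := h (f '' S) (hS.image _) ε hε
  refine ⟨C, fun k => ?_⟩
  have h1 := hC k
  rwa [← Set.image_pow, Set.ncard_image_of_injective _ hf] at h1

/-- virtual commutativity passes to groups which embed -/
theorem virtuallyAbelian_of_injective {A B : Type*} [Group A] [Group B] (f : A →* B)
    (hf : Function.Injective f) (h : VirtuallyAbelian B) : VirtuallyAbelian A := by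
  obtain ⟨K, hK, hc⟩ := h
  have hfi : (K.comap f).FiniteIndex := ⟨by
    rw [Subgroup.index_comap]
    exact (inferInstance : (K.subgroupOf f.range).FiniteIndex).index_ne_zero⟩
  refine ⟨K.comap f, hfi, fun a ha b hb => hf ?_⟩
  rw [map_mul, map_mul]
  exact hc _ ha _ hb

/-- The universal covering of a compact connected complex manifold `X`: a Galois covering with
simply connected total space, whose group is `π₁(X)`. -/
theorem exists_uc {n : ℕ} (X : Type) [TopologicalSpace X] [T2Space X] [CompactSpace X]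
    [ConnectedSpace X] [ChartedSpace (Cm n) X] (x : X) :
    ∃ (Y Γ : Type) (_ : TopologicalSpace Y) (_ : SimplyConnectedSpace Y) (_ : Group Γ)
      (_ : MulAction Γ Y) (π : Y → X) (_ : FundamentalGroup X x ≃* Γ), IsGalois Γ π := by
  obtain ⟨N, hN⟩ := Vale.Agent.P300.H673.exists_openEmbedding (Cm n) X
  obtain ⟨Y, Γ, tY, gΓ, aΓ, π, hsc, ht2, hcont, hfree, hcov, hsurj, horb⟩ :=
    Vale.Agent.P223.X.U.main N X hN
  have hcont' : ∀ γ : Γ, Continuous fun y : Y => γ • y := hcont
  have q := Vale.Agent.P223.R2.H968.Lift.quot π hcont hfree hcov hsurj horb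
  obtain ⟨y0, rfl⟩ := hsurj x
  have e : FundamentalGroup X (π y0) ≃* Γᵐᵒᵖ :=
    q.fundamentalGroupEquiv (⟨y0, rfl⟩ : π ⁻¹' {π y0})
  have e' : FundamentalGroup X (π y0) ≃* Γ := e.trans (MulEquiv.inv' Γ).symm
  exact ⟨Y, Γ, tY, hsc, gΓ, aΓ, π, e', ⟨hcov, hsurj, hcont', hfree, horb⟩⟩

/-- **WPI1** -/
theorem piStmt : PiStmt := by
  intro h n X iT iT2 iC iCn iCh iM w hw Φ hΦ x hgr
  obtain ⟨Y, Γ, tY, hsc, gΓ, aΓ, π, e, hG⟩ := exists_uc (n := n) X x
  exact virtuallyAbelian_of_injective e.toMonoidHom e.injective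
    (h n X w hw Φ hΦ Y Γ π hG
      (subexpGrowth_of_injective e.symm.toMonoidHom e.symm.injective hgr))

/-- **WPI1** for maps of finite order -/
theorem piStmt2 : PiStmt2 := by
  intro h n X iT iT2 iC iCn iCh iM w hw Φ hΦ x hgr
  obtain ⟨Y, Γ, tY, hsc, gΓ, aΓ, π, e, hG⟩ := exists_uc (n := n) X x
  exact virtuallyAbelian_of_injective e.toMonoidHom e.injective
    (h n X w hw Φ hΦ Y Γ π hG
      (subexpGrowth_of_injective e.symm.toMonoidHom e.symm.injective hgr))

end Vale.Agent.P284.H977
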