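import Vale.Agent.P284.H977.Ex
import Vale.Agent.P284.H66.TwE
import Vale.Agent.P284.H730.Dens
import Vale.Agent.P284.H5.Poin
import Vale.Agent.P284.H731.Res
import Vale.Agent.P284.H35.El

/-!
# P284, theorem A: rows AX and AE closed (helper977, 66, 730, 639, 5, 731, 35)
-/

namespace Vale.Agent.P284.H977

open Vale.Agent.P284.H409.A

theorem exConclA : ExConclA :=
  exStmtA H66.TK.twKStmt H730.A.densStmt H639.Tw.ibpStmt H5.A.poinStmt H731.Res.resStmt

theorem elConcl : ElConcl := H35.A9.elStmt exConclA

end Vale.Agent.P284.H977
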