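import Vale.Agent.P284.H977.Loc
import Vale.Agent.P284.H639.TwIbp

/-!
# P284, theorem A, row AX (helper977): twisted functions with small `∂ψ ∧ ∂u`
-/

open scoped Manifold ContDiff Topology Pointwise ComplexConjugate ComplexOrder Matrix
open Filter Set Metric MeasureTheory

noncomputable section

namespace Vale.Agent.P284.H977

open Vale.Agent.P272.K Vale.Agent.P272.K.C2 Vale.Agent.P284.H248 Vale.Agent.P284.H894
  Vale.Agent.P284.H894.V Vale.Agent.P284.H639.V Vale.Agent.P284.H66 Vale.Agent.P284.H66.S7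
  Vale.Agent.P284.H913.V Vale.Agent.P284.H639.Tw
open Vale.Agent.P284.H409.A (lapC Tw Psi Pot IbpStmt tau W1 W2 TwKStmt DensStmt PoinStmt ResStmt
  ExStmtA ExConclA)

/-! ### Local formulas -/

section loc
variable {n : ℕ} {w : Cm n → Matrix (Fin n) (Fin n) ℂ} {z : Cm n}

theorem He_real (f : Cm n → ℝ) (z : Cm n) : He (fun y => (f y : ℂ)) z = cHess f z := rfl

theorem trace_real {M H : Matrix (Fin n) (Fin n) ℂ} (hM : M.IsHermitian) (hH : H.IsHermitian) :
    ((M * H).trace.re : ℂ) = (M * H).trace := by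
  have h1 : conj (M * H).trace = (M * H).trace := by
    have h2 : conj (M * H).trace = ((M * H)ᴴ).trace := by
      rw [Matrix.trace_conjTranspose]; rfl
    rw [h2, Matrix.conjTranspose_mul, hM.eq, hH.eq, Matrix.trace_mul_comm]
  exact Complex.conj_eq_iff_re.1 h1

theorem lc_real (hw : (w z).PosDef) {f : Cm n → ℝ} (hf : ContDiffAt ℝ ∞ f z) :
    lc w (fun y => (f y : ℂ)) z = (lap w f z : ℂ) := by
  rw [lc, He_real, lap]
  exact (trace_real hw.inv.isHermitian (C2.cHess_isHermitian (hf.of_le two_le))).symm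

theorem lapC_eq (hw : (w z).PosDef) {s : Cm n → ℂ} (hs : ContDiffAt ℝ ∞ s z) :
    lapC w s z = lc w s z := by
  have h1 : (fun y => s y) = fun y => ((s y).re : ℂ) + Complex.I * ((s y).im : ℂ) := by
    funext y
    rw [mul_comm, Complex.re_add_im]
  have h2 : lc w s z = lc w (fun y => ((s y).re : ℂ) + Complex.I * ((s y).im : ℂ)) z := by
    rw [← h1]
  have h3 := C2.contDiffAt_ofReal (re_sm hs)
  have h4 := C2.contDiffAt_ofReal (im_sm hs)
  rw [h2, lc_add h3 (contDiffAt_const.mul h4), lc_const_mul _ h4, lc_real hw (re_sm hs),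
    lc_real hw (im_sm hs)]
  rfl

theorem tau_eq (ψ : Cm n → ℝ) (u : Cm n → ℂ) (z : Cm n) :
    tau w ψ u z = lc w u z - 2 * gc w (fun y => (ψ y : ℂ)) u z := by
  have e1 : 2 * gc w (fun y => (ψ y : ℂ)) u z =
      g1 w (fun y => (ψ y : ℂ)) u z + g1 w u (fun y => (ψ y : ℂ)) z := by rw [gc]; ring
  rw [e1]
  simp only [tau, lc, g1, Matrix.trace, Matrix.diag_apply, Matrix.mul_apply, He, Matrix.of_apply]
  rw [Finset.sum_comm (f := fun i j => (w z)⁻¹ i j * dz j (dzb i u) z)]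
  rw [← Finset.sum_add_distrib, ← Finset.sum_sub_distrib]
  refine Finset.sum_congr rfl fun j _ => ?_
  rw [← Finset.sum_add_distrib, ← Finset.sum_sub_distrib]
  refine Finset.sum_congr rfl fun k _ => ?_
  ring

theorem gc_real (hw : (w z).PosDef) {ψ : Cm n → ℝ} (hψ : DifferentiableAt ℝ ψ z) :
    gc w (fun y => (ψ y : ℂ)) (fun y => (ψ y : ℂ)) z = (gr w ψ ψ z : ℂ) := by
  have hd := C2.differentiableAt_ofReal hψ
  have h1 : gc w (fun y => (ψ y : ℂ)) (fun y => (ψ y : ℂ)) z =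
      g1 w (fun y => (ψ y : ℂ)) (fun y => (ψ y : ℂ)) z := by rw [gc]; ring
  have h2 : conj (g1 w (fun y => (ψ y : ℂ)) (fun y => (ψ y : ℂ)) z) =
      g1 w (fun y => (ψ y : ℂ)) (fun y => (ψ y : ℂ)) z := by
    rw [← g1_conj hw.inv.isHermitian hd hd]
    simp only [Complex.conj_ofReal]
  rw [h1]
  exact (Complex.conj_eq_iff_re.1 h2).symm

/-- conjugation by `e^ψ` -/
theorem tau_exp (hw : (w z).PosDef) {ψ : Cm n → ℝ} {s : Cm n → ℂ} (hψ : ContDiffAt ℝ ∞ ψ z)
    (hess : cHess ψ z = 0) (hs : ContDiffAt ℝ ∞ s z) :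
    tau w ψ (fun y => (Real.exp (ψ y) : ℂ) * s y) z =
      (Real.exp (ψ z) : ℂ) * (lapC w s z - (gr w ψ ψ z : ℂ) * s z) := by
  have hE : ContDiffAt ℝ ∞ (fun y => Real.exp (ψ y)) z := hψ.exp
  have hEc : ContDiffAt ℝ ∞ (fun y => (Real.exp (ψ y) : ℂ)) z := C2.contDiffAt_ofReal hE
  have hψc : ContDiffAt ℝ ∞ (fun y => (ψ y : ℂ)) z := C2.contDiffAt_ofReal hψ
  have hd1 : ∀ y, DifferentiableAt ℝ ψ y → ∀ j, dz j (fun x => (Real.exp (ψ x) : ℂ)) y =
      (Real.exp (ψ y) : ℂ) * dz j (fun x => (ψ x : ℂ)) y := fun y hy j =>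
    C2.dz_comp_real j (ψ := Real.exp) (Real.hasDerivAt_exp (ψ y)) hy
  have hd2 : ∀ y, DifferentiableAt ℝ ψ y → ∀ j, dzb j (fun x => (Real.exp (ψ x) : ℂ)) y =
      (Real.exp (ψ y) : ℂ) * dzb j (fun x => (ψ x : ℂ)) y := fun y hy j =>
    C2.dzb_comp_real j (ψ := Real.exp) (Real.hasDerivAt_exp (ψ y)) hy
  have hev : ∀ᶠ y in 𝓝 z, DifferentiableAt ℝ ψ y := by
    filter_upwards [C2.eventually_contDiffAt (m := 2) (hψ.of_le two_le)] with y hy
    exact hy.differentiableAt (by norm_num)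
  have hg : ∀ h : Cm n → ℂ, gc w (fun y => (Real.exp (ψ y) : ℂ)) h z =
      (Real.exp (ψ z) : ℂ) * gc w (fun y => (ψ y : ℂ)) h z := by
    intro h
    simp only [gc, g1, hd1 z hev.self_of_nhds, hd2 z hev.self_of_nhds]
    rw [mul_div_assoc', mul_add, Finset.mul_sum, Finset.mul_sum]
    congr 2
    · refine Finset.sum_congr rfl fun j _ => ?_
      rw [Finset.mul_sum]
      exact Finset.sum_congr rfl fun k _ => by ring
    · refine Finset.sum_congr rfl fun j _ => ?_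
      rw [Finset.mul_sum]
      exact Finset.sum_congr rfl fun k _ => by ring
  have hHe : He (fun y => (Real.exp (ψ y) : ℂ)) z = Matrix.of fun j k =>
      (Real.exp (ψ z) : ℂ) * (dz j (fun x => (ψ x : ℂ)) z * dzb k (fun x => (ψ x : ℂ)) z) := by
    ext j k
    simp only [He, Matrix.of_apply]
    have e : dzb k (fun x => (Real.exp (ψ x) : ℂ)) =ᶠ[𝓝 z] fun y =>
        (Real.exp (ψ y) : ℂ) * dzb k (fun x => (ψ x : ℂ)) y := by
      filter_upwards [hev] with y hy
      exact hd2 y hy k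
    rw [C2.dz_congr j e, C2.dz_mul j (sm_diff hEc) (sm_dzb hψc k), hd1 z hev.self_of_nhds]
    have h0 : dz j (dzb k fun x => (ψ x : ℂ)) z = 0 := by
      have := congrFun (congrFun hess j) k
      rwa [C2.cHess_apply] at this
    rw [h0]
    ring
  have hlc : lc w (fun y => (Real.exp (ψ y) : ℂ)) z =
      (Real.exp (ψ z) : ℂ) * gc w (fun y => (ψ y : ℂ)) (fun y => (ψ y : ℂ)) z := by
    have h1 : gc w (fun y => (ψ y : ℂ)) (fun y => (ψ y : ℂ)) z =
      g1 w (fun y => (ψ y : ℂ)) (fun y => (ψ y : ℂ)) z := by rw [gc]; ring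
    rw [h1, lc, hHe]
    simp only [Matrix.trace, Matrix.diag_apply, Matrix.mul_apply, Matrix.of_apply, g1,
      Finset.mul_sum]
    rw [Finset.sum_comm]
    exact Finset.sum_congr rfl fun j _ => Finset.sum_congr rfl fun k _ => by ring
  rw [tau_eq, lc_mul hEc hs, hlc, hg, gc_mul' (sm_diff hEc) (sm_diff hs), gc_symm (h := fun y =>
    (Real.exp (ψ y) : ℂ)), hg, gc_real hw hev.self_of_nhds, lapC_eq hw hs]
  ring

theorem tau_add {ψ : Cm n → ℝ} {u v : Cm n → ℂ} (hu : ContDiffAt ℝ ∞ u z)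
    (hv : ContDiffAt ℝ ∞ v z) :
    tau w ψ (fun y => u y + v y) z = tau w ψ u z + tau w ψ v z := by
  rw [tau_eq, tau_eq, tau_eq, lc_add hu hv, gc_add' (sm_diff hu) (sm_diff hv)]
  ring

theorem tau_aff {ψ : Cm n → ℝ} {u : Cm n → ℂ} (c d : ℂ) (hu : ContDiffAt ℝ ∞ u z) :
    tau w ψ (fun y => c * u y + d) z = c * tau w ψ u z := by
  rw [tau_add (contDiffAt_const.mul hu) contDiffAt_const, tau_eq, tau_eq (u := fun _ => d), tau_eq,
    lc_const_mul c hu, gc_const_mul' c (sm_diff hu), lc_const, gc_symm (h := fun _ => d), gc_const]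
  ring

theorem tau_congr {ψ ψ' : Cm n → ℝ} {u v : Cm n → ℂ} (e : ψ =ᶠ[𝓝 z] ψ') (e' : u =ᶠ[𝓝 z] v) :
    tau w ψ u z = tau w ψ' v z := by
  have e1 : (fun y => (ψ y : ℂ)) =ᶠ[𝓝 z] fun y => (ψ' y : ℂ) := e.mono fun y hy => by
    simp only [hy]
  rw [tau_eq, tau_eq, lc_congr e', gc_congr e1 e']

theorem tau_addc {ψ : Cm n → ℝ} {u : Cm n → ℂ} (t : ℝ) (hψ : DifferentiableAt ℝ ψ z) :
    tau w (fun y => ψ y + t) u z = tau w ψ u z := by
  have h1 : (fun y => ((ψ y + t : ℝ) : ℂ)) = fun y => (ψ y : ℂ) + (t : ℂ) := by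
    funext y; push_cast; rfl
  rw [tau_eq, tau_eq, h1, gc_add (C2.differentiableAt_ofReal hψ) (differentiableAt_const _),
    gc_const, add_zero]

theorem gr_ne_zero (hw : (w z).PosDef) {ψ : Cm n → ℝ} (hψ : DifferentiableAt ℝ ψ z)
    (h0 : fderiv ℝ ψ z ≠ 0) : gr w ψ ψ z ≠ 0 := by
  intro hg
  apply h0
  have h1 : (H730.V.S (w z)⁻¹ (H730.V.dd ψ z) (H730.V.dd ψ z)).re = 0 := by
    rw [← H730.V.gr_eq]; exact hg
  have h2 : H730.V.dd ψ z = 0 := by
    by_contra hne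
    rw [H730.V.S_eq] at h1
    have := hw.inv.dotProduct_mulVec_pos hne
    exact absurd h1 (Complex.lt_def.1 this).1.ne'
  have h3 : fderiv ℝ (fun y => (ψ y : ℂ)) z = Complex.ofRealCLM.comp (fderiv ℝ ψ z) :=
    (Complex.ofRealCLM.hasFDerivAt.comp z hψ.hasFDerivAt).fderiv
  have h4 : ∀ j : Fin n, fderiv ℝ ψ z (Pi.single j 1) = 0 ∧
      fderiv ℝ ψ z (Pi.single j Complex.I) = 0 := by
    intro j
    have h5 : dz j (fun y => (ψ y : ℂ)) z = 0 := congrFun h2 j
    rw [dz, h3] at h5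
    simp only [ContinuousLinearMap.comp_apply, Complex.ofRealCLM_apply] at h5
    have h6 : ((fderiv ℝ ψ z (Pi.single j 1) : ℝ) : ℂ) -
        Complex.I * ((fderiv ℝ ψ z (Pi.single j Complex.I) : ℝ) : ℂ) = 0 := by
      have := div_eq_zero_iff.1 h5
      rcases this with h | h
      · exact h
      · norm_num at h
    have h7 := congrArg Complex.re h6
    have h8 := congrArg Complex.im h6
    simp at h7 h8
    exact ⟨h7, h8⟩
  ext v
  have hv : v = ∑ j, ((v j).re • (Pi.single j (1 : ℂ) : Cm n) +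
      (v j).im • (Pi.single j Complex.I : Cm n)) := by
    ext i
    rw [Finset.sum_apply, Finset.sum_eq_single i]
    · simp only [Pi.add_apply, Pi.smul_apply, Pi.single_eq_same]
      rw [Complex.real_smul, Complex.real_smul, mul_one, Complex.re_add_im]
    · intro j _ hj
      simp [Pi.single_eq_of_ne' hj]
    · intro h; exact absurd (Finset.mem_univ i) h
  rw [hv, map_sum]
  simp [(h4 _).1, (h4 _).2]

end loc

end Vale.Agent.P284.H977
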