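import Vale.Agent.P284.H894.W.Spec2
import Vale.Agent.P284.H894.G.Final

/-! # P284, theorem W with theorem G (helper977): projective manifolds. -/

open scoped Manifold ContDiff Topology Pointwise
open Filter Set Metric

noncomputable section

namespace Vale.Agent.P284.H977

open Vale.Agent.P272.K Vale.Agent.P284.H248 Vale.Agent.P284.H894 Vale.Agent.P284.H894.G
  Vale.Agent.P284.H894.V Vale.Agent.P284.H894.W

/-- two points in the image of a holomorphic map `ℂᵐ → X` lie on an entire curve -/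
theorem onCurve_of_map {n m : ℕ} {X : Type} [TopologicalSpace X] [ChartedSpace (Cm n) X]
    {Φ : Cm m → X} (hΦ : ContMDiff 𝓘(ℂ, Cm m) 𝓘(ℂ, Cm n) ω Φ) (a b : Cm m) :
    OnCurve n X (Φ a) (Φ b) := by
  refine ⟨fun t : ℂ => Φ (a + t • (b - a)), ?_, by simp, by simp⟩
  have h1 : ContDiff ℂ ω fun t : ℂ => a + t • (b - a) := by fun_prop
  exact hΦ.comp h1.contMDiff

/-- Theorem W for projective manifolds: a holomorphic map of finite order `Φ : ℂⁿ → X`, and an open set
`U` with `π₁(U) → π₁(X)` onto whose points are joined by chains of entire curves to countably many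
points. -/
def FinalProj : Prop :=
  ∀ (n : ℕ) (X : Type) [TopologicalSpace X] [T2Space X] [CompactSpace X] [ConnectedSpace X]
    [ChartedSpace (Cm n) X] [IsManifold 𝓘(ℂ, Cm n) ω X] (L : LineBundle n X), Positive L →
    ∀ (w : Chart n X → Cm n → Matrix (Fin n) (Fin n) ℂ), IsKahler w →
    ∀ Φ : Cm n → X, FiniteOrder w Φ →
    ∀ (U : Set X) (x : X) (Q : Set X), IsOpen U → x ∈ U →
    (∀ c : Path x x, ∃ c' : Path x x, c.Homotopic c' ∧ ∀ t, c' t ∈ U) →
    Q.Countable → (∀ y ∈ U, ∃ q ∈ Q, Chain n X y q) →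
    VirtuallyAbelian (FundamentalGroup X x)

theorem finalProj_of (h : MainPi2) : FinalProj := by
  intro n X _ _ _ _ _ _ L hL w hw Φ hΦ U x Q hU hx hc hQ hch
  exact h n X w hw Φ hΦ x (gFinal n X L hL U x Q hU hx hc hQ hch)

/-- The special case in which `Φ : ℂⁿ → X` is onto. -/
def FinalSurj : Prop :=
  ∀ (n : ℕ) (X : Type) [TopologicalSpace X] [T2Space X] [CompactSpace X] [ConnectedSpace X]
    [ChartedSpace (Cm n) X] [IsManifold 𝓘(ℂ, Cm n) ω X] (L : LineBundle n X), Positive L →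
    ∀ (w : Chart n X → Cm n → Matrix (Fin n) (Fin n) ℂ), IsKahler w →
    ∀ Φ : Cm n → X, FiniteOrder w Φ → Function.Surjective Φ → ∀ x : X,
    VirtuallyAbelian (FundamentalGroup X x)

theorem finalSurj_of (h : MainPi2) : FinalSurj := by
  intro n X _ _ _ _ _ _ L hL w hw Φ hΦ hs x
  refine finalProj_of h n X L hL w hw Φ hΦ univ x {Φ 0} isOpen_univ (mem_univ _)
    (fun c => ⟨c, Path.Homotopic.refl c, fun _ => mem_univ _⟩) (countable_singleton _) ?_
  intro y _
  obtain ⟨ζ, rfl⟩ := hs y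
  exact ⟨Φ 0, rfl, Relation.ReflTransGen.single (onCurve_of_map hΦ.holo ζ 0)⟩

end Vale.Agent.P284.H977
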