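import Vale.Agent.P284.H66.GDiv

/-!
# P284, theorem A, block A5 (helper977): complex Laplacian and gradient in charts
-/

open scoped Manifold ContDiff Topology Pointwise ComplexConjugate ComplexOrder Matrix
open Filter Set Metric MeasureTheory

noncomputable section

namespace Vale.Agent.P284.H977

open Vale.Agent.P272.K Vale.Agent.P272.K.C2 Vale.Agent.P284.H248 Vale.Agent.P284.H894
  Vale.Agent.P284.H894.V Vale.Agent.P284.H639.V Vale.Agent.P284.H66.S7

variable {n : ℕ} {w w' : Cm n → Matrix (Fin n) (Fin n) ℂ} {f g h f' g' h' : Cm n → ℂ} {z : Cm n}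

/-- the matrix `∂_j ∂_k̄ f` of a complex function -/
def He (f : Cm n → ℂ) (z : Cm n) : Matrix (Fin n) (Fin n) ℂ :=
  Matrix.of fun j k => dz j (dzb k f) z

/-- the Laplacian of a complex function -/
def lc (w : Cm n → Matrix (Fin n) (Fin n) ℂ) (f : Cm n → ℂ) (z : Cm n) : ℂ :=
  ((w z)⁻¹ * He f z).trace

/-- `Σ w^{k̄ j} ∂_j f ∂_k̄ h` -/
def g1 (w : Cm n → Matrix (Fin n) (Fin n) ℂ) (f h : Cm n → ℂ) (z : Cm n) : ℂ :=
  ∑ j, ∑ k, (w z)⁻¹ k j * dz j f z * dzb k h z

/-- the complex bilinear extension of `gr` -/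
def gc (w : Cm n → Matrix (Fin n) (Fin n) ℂ) (f h : Cm n → ℂ) (z : Cm n) : ℂ :=
  (g1 w f h z + g1 w h f z) / 2

theorem gc_symm : gc w f h z = gc w h f z := by rw [gc, gc, add_comm]

/-! ### congruence -/

theorem He_congr (e : f =ᶠ[𝓝 z] g) : He f z = He g z := by
  ext j k
  exact C2.dz_congr j (C2.dzb_eventuallyEq k e)

theorem lc_congr (e : f =ᶠ[𝓝 z] g) : lc w f z = lc w g z := by rw [lc, lc, He_congr e]

theorem g1_congr (e : f =ᶠ[𝓝 z] g) (e' : h =ᶠ[𝓝 z] h') : g1 w f h z = g1 w g h' z := by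
  simp only [g1, C2.dz_congr _ e, C2.dzb_congr _ e']

theorem gc_congr (e : f =ᶠ[𝓝 z] g) (e' : h =ᶠ[𝓝 z] h') : gc w f h z = gc w g h' z := by
  rw [gc, gc, g1_congr e e', g1_congr e' e]

/-! ### linearity -/

theorem g1_add_left (hf : DifferentiableAt ℝ f z) (hg : DifferentiableAt ℝ g z) :
    g1 w (fun y => f y + g y) h z = g1 w f h z + g1 w g h z := by
  simp only [g1, C2.dz_add _ hf hg, ← Finset.sum_add_distrib]
  exact Finset.sum_congr rfl fun j _ => Finset.sum_congr rfl fun k _ => by ring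

theorem g1_add_right (hf : DifferentiableAt ℝ f z) (hg : DifferentiableAt ℝ g z) :
    g1 w h (fun y => f y + g y) z = g1 w h f z + g1 w h g z := by
  simp only [g1, C2.dzb_add _ hf hg, ← Finset.sum_add_distrib]
  exact Finset.sum_congr rfl fun j _ => Finset.sum_congr rfl fun k _ => by ring

theorem g1_mul_left (hf : DifferentiableAt ℝ f z) (hg : DifferentiableAt ℝ g z) :
    g1 w (fun y => f y * g y) h z = f z * g1 w g h z + g z * g1 w f h z := by
  simp only [g1, C2.dz_mul _ hf hg, Finset.mul_sum, ← Finset.sum_add_distrib]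
  exact Finset.sum_congr rfl fun j _ => Finset.sum_congr rfl fun k _ => by ring

theorem g1_mul_right (hf : DifferentiableAt ℝ f z) (hg : DifferentiableAt ℝ g z) :
    g1 w h (fun y => f y * g y) z = f z * g1 w h g z + g z * g1 w h f z := by
  simp only [g1, C2.dzb_mul _ hf hg, Finset.mul_sum, ← Finset.sum_add_distrib]
  exact Finset.sum_congr rfl fun j _ => Finset.sum_congr rfl fun k _ => by ring

theorem g1_const_left (c : ℂ) : g1 w (fun _ => c) h z = 0 := by
  simp [g1, C2.dz_const]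

theorem g1_const_right (c : ℂ) : g1 w h (fun _ => c) z = 0 := by
  simp [g1, C2.dzb_const]

theorem gc_add (hf : DifferentiableAt ℝ f z) (hg : DifferentiableAt ℝ g z) :
    gc w (fun y => f y + g y) h z = gc w f h z + gc w g h z := by
  rw [gc, gc, gc, g1_add_left hf hg, g1_add_right hf hg]; ring

theorem gc_mul (hf : DifferentiableAt ℝ f z) (hg : DifferentiableAt ℝ g z) :
    gc w (fun y => f y * g y) h z = f z * gc w g h z + g z * gc w f h z := by
  rw [gc, gc, gc, g1_mul_left hf hg, g1_mul_right hf hg]; ring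

theorem gc_const (c : ℂ) : gc w (fun _ => c) h z = 0 := by
  rw [gc, g1_const_left, g1_const_right]; simp

theorem gc_const' (c : ℂ) : gc w h (fun _ => c) z = 0 := by rw [gc_symm, gc_const]

theorem gc_const_mul (c : ℂ) (hf : DifferentiableAt ℝ f z) :
    gc w (fun y => c * f y) h z = c * gc w f h z := by
  rw [gc_mul (f := fun _ => c) (differentiableAt_const c) hf, gc_const, mul_zero, add_zero]

theorem gc_add' (hf : DifferentiableAt ℝ f z) (hg : DifferentiableAt ℝ g z) :
    gc w h (fun y => f y + g y) z = gc w h f z + gc w h g z := by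
  rw [gc_symm, gc_add hf hg, gc_symm, gc_symm (f := g)]

theorem gc_mul' (hf : DifferentiableAt ℝ f z) (hg : DifferentiableAt ℝ g z) :
    gc w h (fun y => f y * g y) z = f z * gc w h g z + g z * gc w h f z := by
  rw [gc_symm, gc_mul hf hg, gc_symm, gc_symm (f := f)]

theorem gc_const_mul' (c : ℂ) (hf : DifferentiableAt ℝ f z) :
    gc w h (fun y => c * f y) z = c * gc w h f z := by
  rw [gc_symm, gc_const_mul c hf, gc_symm]

theorem ev_diff (hf : ContDiffAt ℝ ∞ f z) : ∀ᶠ y in 𝓝 z, DifferentiableAt ℝ f y := by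
  filter_upwards [C2.eventually_contDiffAt (m := 2) (hf.of_le two_le)] with y hy
  exact hy.differentiableAt (by norm_num)

theorem sm_diff (hf : ContDiffAt ℝ ∞ f z) : DifferentiableAt ℝ f z :=
  hf.differentiableAt (by norm_num)

theorem sm_dzb (hf : ContDiffAt ℝ ∞ f z) (k : Fin n) : DifferentiableAt ℝ (dzb k f) z :=
  C2.differentiableAt_dzb k (hf.of_le two_le)

theorem He_add (hf : ContDiffAt ℝ ∞ f z) (hg : ContDiffAt ℝ ∞ g z) :
    He (fun y => f y + g y) z = He f z + He g z := by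
  ext j k
  simp only [He, Matrix.add_apply, Matrix.of_apply]
  rw [← C2.dz_add j (sm_dzb hf k) (sm_dzb hg k)]
  refine C2.dz_congr j ?_
  filter_upwards [ev_diff hf, ev_diff hg] with y h1 h2
  exact C2.dzb_add k h1 h2

theorem He_mul (hf : ContDiffAt ℝ ∞ f z) (hg : ContDiffAt ℝ ∞ g z) (j k : Fin n) :
    He (fun y => f y * g y) z j k = f z * He g z j k + g z * He f z j k +
      dz j f z * dzb k g z + dz j g z * dzb k f z := by
  simp only [He, Matrix.of_apply]
  have e : dzb k (fun y => f y * g y) =ᶠ[𝓝 z] fun y => f y * dzb k g y + dzb k f y * g y := by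
    filter_upwards [ev_diff hf, ev_diff hg] with y h1 h2
    rw [C2.dzb_mul k h1 h2]
    ring
  rw [C2.dz_congr j e, C2.dz_add j ((sm_diff hf).fun_mul (sm_dzb hg k))
    ((sm_dzb hf k).fun_mul (sm_diff hg)), C2.dz_mul j (sm_diff hf) (sm_dzb hg k),
    C2.dz_mul j (sm_dzb hf k) (sm_diff hg)]
  ring

theorem He_const (c : ℂ) : He (fun _ : Cm n => c) z = 0 := by
  ext j k
  simp only [He, Matrix.of_apply, Matrix.zero_apply]
  have : dzb k (fun _ : Cm n => c) = fun _ => 0 := funext fun y => C2.dzb_const k c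
  rw [this, C2.dz_const]

theorem lc_add (hf : ContDiffAt ℝ ∞ f z) (hg : ContDiffAt ℝ ∞ g z) :
    lc w (fun y => f y + g y) z = lc w f z + lc w g z := by
  rw [lc, lc, lc, He_add hf hg, Matrix.mul_add, Matrix.trace_add]

theorem lc_const (c : ℂ) : lc w (fun _ => c) z = 0 := by
  rw [lc, He_const]; simp

theorem lc_mul (hf : ContDiffAt ℝ ∞ f z) (hg : ContDiffAt ℝ ∞ g z) :
    lc w (fun y => f y * g y) z = f z * lc w g z + g z * lc w f z + 2 * gc w f g z := by
  have e1 : 2 * gc w f g z = g1 w f g z + g1 w g f z := by rw [gc]; ring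
  rw [e1]
  simp only [lc, g1, Matrix.trace, Matrix.diag_apply, Matrix.mul_apply, He_mul hf hg,
    Finset.mul_sum]
  rw [Finset.sum_comm (f := fun j k => (w z)⁻¹ k j * dz j f z * dzb k g z),
    Finset.sum_comm (f := fun j k => (w z)⁻¹ k j * dz j g z * dzb k f z)]
  simp only [← Finset.sum_add_distrib]
  exact Finset.sum_congr rfl fun i _ => Finset.sum_congr rfl fun j _ => by ring

theorem lc_const_mul (c : ℂ) (hf : ContDiffAt ℝ ∞ f z) :
    lc w (fun y => c * f y) z = c * lc w f z := by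
  rw [lc_mul (f := fun _ => c) contDiffAt_const hf, lc_const, gc_const]; ring

/-! ### conjugation -/

theorem g1_conj (hw : (w z)⁻¹.IsHermitian) (hf : DifferentiableAt ℝ f z)
    (hh : DifferentiableAt ℝ h z) :
    g1 w (fun y => conj (f y)) (fun y => conj (h y)) z = conj (g1 w h f z) := by
  simp only [g1, map_sum, map_mul, C2.dz_conj _ hf, C2.dzb_conj _ hh]
  rw [Finset.sum_comm]
  refine Finset.sum_congr rfl fun j _ => Finset.sum_congr rfl fun k _ => ?_
  have : conj ((w z)⁻¹ k j) = (w z)⁻¹ j k := by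
    have := hw.apply j k
    simpa using this
  rw [this]
  ring

theorem gc_conj (hw : (w z)⁻¹.IsHermitian) (hf : DifferentiableAt ℝ f z)
    (hh : DifferentiableAt ℝ h z) :
    gc w (fun y => conj (f y)) (fun y => conj (h y)) z = conj (gc w f h z) := by
  rw [gc, gc, g1_conj hw hf hh, g1_conj hw hh hf, map_div₀, map_add, map_ofNat]
  ring

theorem He_conj (hf : ContDiffAt ℝ ∞ f z) :
    He (fun y => conj (f y)) z = (He f z)ᴴ := by
  ext j k
  rw [Matrix.conjTranspose_apply]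
  simp only [He, Matrix.of_apply]
  have e : dzb k (fun y => conj (f y)) =ᶠ[𝓝 z] fun y => conj (dz k f y) := by
    filter_upwards [ev_diff hf] with y h1
    exact C2.dzb_conj k h1
  rw [C2.dz_congr j e, C2.dz_conj j (C2.differentiableAt_dz k (hf.of_le two_le)),
    ← C2.dz_dzb_comm k j (hf.of_le two_le)]
  rfl

theorem lc_conj (hw : (w z)⁻¹.IsHermitian) (hf : ContDiffAt ℝ ∞ f z) :
    lc w (fun y => conj (f y)) z = conj (lc w f z) := by
  rw [lc, lc, He_conj hf]
  have h1 : conj ((w z)⁻¹ * He f z).trace = (((w z)⁻¹ * He f z)ᴴ).trace := by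
    rw [Matrix.trace_conjTranspose]; rfl
  rw [h1, Matrix.conjTranspose_mul, hw.eq, Matrix.trace_mul_comm]

/-! ### positivity -/

theorem g1_eq_S (hh : DifferentiableAt ℝ h z) :
    g1 w f h z = H730.V.S (w z)⁻¹ (fun j => dz j f z) (fun k => dz k (fun y => conj (h y)) z) := by
  simp only [g1, H730.V.S, C2.dz_conj _ hh, Complex.conj_conj]

theorem gc_nonneg (hw : (w z).PosDef) (hf : DifferentiableAt ℝ f z) :
    0 ≤ (gc w f (fun y => conj (f y)) z).re := by
  have h1 : 0 ≤ (g1 w f (fun y => conj (f y)) z).re := by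
    rw [g1_eq_S (C2.differentiableAt_conj hf)]
    simp only [Complex.conj_conj]
    exact H730.V.S_nonneg hw.inv.posSemidef _
  have h2 : 0 ≤ (g1 w (fun y => conj (f y)) f z).re := by
    rw [g1_eq_S hf]
    exact H730.V.S_nonneg hw.inv.posSemidef _
  rw [gc]
  have h3 : ((g1 w f (fun y => conj (f y)) z + g1 w (fun y => conj (f y)) f z) / 2).re =
      ((g1 w f (fun y => conj (f y)) z).re + (g1 w (fun y => conj (f y)) f z).re) / 2 := by
    simp
  rw [h3]
  linarith

/-! ### change of coordinates -/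

section trans
variable {T : Cm n → Cm n}

theorem He_comp (hT : ∀ᶠ y in 𝓝 z, DifferentiableAt ℂ T y) (hf' : ContDiffAt ℝ ∞ f' (T z))
    (e : ∀ᶠ y in 𝓝 z, f y = f' (T y)) :
    He f z = (jmat T z)ᵀ * He f' (T z) * (jmat T z).map (starRingEnd ℂ) := by
  have hTz : DifferentiableAt ℂ T z := hT.self_of_nhds
  ext j k
  have h0 : He f z j k = dz j (dzb k f) z := rfl
  rw [h0]
  have e1 : (dzb k f) =ᶠ[𝓝 z] fun y => ∑ q, dzb q f' (T y) * cj (jmat T y q k) := by
    have hc : ∀ᶠ y in 𝓝 z, DifferentiableAt ℝ f' (T y) :=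
      hTz.continuousAt.eventually (ev_diff hf')
    filter_upwards [e.eventually_nhds, hT, hc] with y hy hTy hcy
    rw [C2.dzb_congr k hy, dzb_comp_holo (f := f') hcy hTy]
  have hd : ∀ q, DifferentiableAt ℝ (dzb q f') (T z) := fun q => sm_dzb hf' q
  have hTr : DifferentiableAt ℝ T z := hTz.restrictScalars ℝ
  have hd' : ∀ q, DifferentiableAt ℝ (fun y => dzb q f' (T y)) z := fun q =>
    (hd q).comp z hTr
  have hJ : ∀ q, DifferentiableAt ℝ (fun y => jmat T y q k) z := fun q =>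
    (H730.V.jmat_holo hT q k).restrictScalars ℝ
  have hJ' : ∀ q, DifferentiableAt ℝ (fun y => cj (jmat T y q k)) z := fun q =>
    C2.differentiableAt_conj (hJ q)
  rw [C2.dz_congr j e1, C2.dz_sum j _ (fun q _ => (hd' q).fun_mul (hJ' q))]
  have e2 : ∀ q, dz j (fun y => dzb q f' (T y) * cj (jmat T y q k)) z =
      (∑ p, jmat T z p j * He f' (T z) p q) * cj (jmat T z q k) := by
    intro q
    rw [C2.dz_mul j (hd' q) (hJ' q), C2.dz_conj j (hJ q),
      Vale.Agent.P272.K.dzb_of_holo (H730.V.jmat_holo hT q k), map_zero, mul_zero, add_zero,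
      dz_comp_holo (hd q) hTz]
    congr 1
    exact Finset.sum_congr rfl fun p _ => mul_comm _ _
  simp only [e2]
  rw [Matrix.mul_apply]
  refine Finset.sum_congr rfl fun q _ => ?_
  rw [Matrix.mul_apply]
  rfl

theorem lc_comp (hT : ∀ᶠ y in 𝓝 z, DifferentiableAt ℂ T y) (hw : (w z).PosDef)
    (hlaw : w z = (jmat T z)ᵀ * w' (T z) * (jmat T z).map (starRingEnd ℂ))
    (hf' : ContDiffAt ℝ ∞ f' (T z)) (e : ∀ᶠ y in 𝓝 z, f y = f' (T y)) :
    lc w f z = lc w' f' (T z) := by
  rw [lc, lc, He_comp hT hf' e, H730.V.trace_pull, H730.V.inv_law hw.det_pos.ne' hlaw]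

theorem dz_vec_comp (hT : DifferentiableAt ℂ T z) (hf' : DifferentiableAt ℝ f' (T z))
    (e : ∀ᶠ y in 𝓝 z, f y = f' (T y)) :
    (fun j => dz j f z) = (jmat T z)ᵀ *ᵥ fun j => dz j f' (T z) := by
  ext i
  rw [C2.dz_congr i e, dz_comp_holo (f := f') hf' hT]
  simp only [Matrix.mulVec, dotProduct, Matrix.transpose_apply]
  exact Finset.sum_congr rfl fun p _ => mul_comm _ _

theorem g1_comp (hT : ∀ᶠ y in 𝓝 z, DifferentiableAt ℂ T y) (hw : (w z).PosDef)
    (hlaw : w z = (jmat T z)ᵀ * w' (T z) * (jmat T z).map (starRingEnd ℂ))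
    (hf' : DifferentiableAt ℝ f' (T z)) (hh' : DifferentiableAt ℝ h' (T z))
    (e : ∀ᶠ y in 𝓝 z, f y = f' (T y)) (e' : ∀ᶠ y in 𝓝 z, h y = h' (T y)) :
    g1 w f h z = g1 w' f' h' (T z) := by
  have hTz : DifferentiableAt ℂ T z := hT.self_of_nhds
  have hh : DifferentiableAt ℝ h z := by
    have h1 : DifferentiableAt ℝ (fun y => h' (T y)) z := hh'.comp z (hTz.restrictScalars ℝ)
    exact h1.congr_of_eventuallyEq e'
  rw [g1_eq_S hh, g1_eq_S hh', dz_vec_comp hTz hf' e,
    dz_vec_comp (f := fun y => conj (h y)) (f' := fun y => conj (h' y)) hTz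
      (C2.differentiableAt_conj hh') (e'.mono fun y hy => by rw [hy]),
    H730.V.S_pull, H730.V.inv_law hw.det_pos.ne' hlaw]

theorem gc_comp (hT : ∀ᶠ y in 𝓝 z, DifferentiableAt ℂ T y) (hw : (w z).PosDef)
    (hlaw : w z = (jmat T z)ᵀ * w' (T z) * (jmat T z).map (starRingEnd ℂ))
    (hf' : DifferentiableAt ℝ f' (T z)) (hh' : DifferentiableAt ℝ h' (T z))
    (e : ∀ᶠ y in 𝓝 z, f y = f' (T y)) (e' : ∀ᶠ y in 𝓝 z, h y = h' (T y)) :
    gc w f h z = gc w' f' h' (T z) := by
  rw [gc, gc, g1_comp hT hw hlaw hf' hh' e e', g1_comp hT hw hlaw hh' hf' e' e]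

end trans

/-! ### smoothness -/

variable {U : Set (Cm n)}

theorem mc_He (hf : ContDiffAt ℝ ∞ f z) : MC ∞ (He f) z := fun j k =>
  C2.contDiffAt_dz (m := ∞) j (C2.contDiffAt_dzb (m := ∞) k hf (by norm_num)) (by norm_num)

theorem lc_smooth (hw : KU U w) (hz : z ∈ U) (hf : ContDiffAt ℝ ∞ f z) :
    ContDiffAt ℝ ∞ (lc w f) z :=
  ((KU_inv hw hz).mul (mc_He hf)).trace

theorem g1_smooth (hw : KU U w) (hz : z ∈ U) (hf : ContDiffAt ℝ ∞ f z)
    (hh : ContDiffAt ℝ ∞ h z) : ContDiffAt ℝ ∞ (g1 w f h) z := by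
  refine ContDiffAt.sum fun j _ => ContDiffAt.sum fun k _ => ?_
  exact ((KU_inv hw hz k j).mul (C2.contDiffAt_dz (m := ∞) j hf (by norm_num))).mul
    (C2.contDiffAt_dzb (m := ∞) k hh (by norm_num))

theorem gc_smooth (hw : KU U w) (hz : z ∈ U) (hf : ContDiffAt ℝ ∞ f z)
    (hh : ContDiffAt ℝ ∞ h z) : ContDiffAt ℝ ∞ (gc w f h) z :=
  ((g1_smooth hw hz hf hh).add (g1_smooth hw hz hh hf)).div_const 2

end Vale.Agent.P284.H977
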